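import Crest.Agent.R182.Cg.Conj

/-! R182/Cg/Dbl (owner helper36): the balls of `C` are comparable to convex boxes; doubling. -/

set_option autoImplicit false
set_option linter.unusedVariables false
set_option linter.unusedSectionVars false
open Set Filter Topology MeasureTheory Crest.GroupTheory
open scoped Pointwise commutatorElement ENNReal

noncomputable section
namespace Crest.Agent.R182

open Crest.Agent.R182.Core

namespace Model
variable {h k : ℕ} (M : Model h k) {m n w : ℕ} {X : V h}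

/-- logarithms of the elements of `ballC w ∩ N` -/
def SC (w : ℕ) : Set (V h) := {X | M.exp X ∈ M.ballC w}

/-- conjugates by short products -/
def TC (n a w : ℕ) : Set (V h) :=
  {Y | ∃ l : List M.G, l.length ≤ n ∧ (∀ T ∈ l, T ∈ M.ballC w) ∧ ∃ X ∈ M.SC (a * w), Y = M.Ad l.prod X}

theorem zero_mem_SC (w : ℕ) : 0 ∈ M.SC w := by
  change M.exp 0 ∈ M.ballC _
  rw [M.exp_zero]; exact M.one_mem_ballC w

theorem neg_mem_SC (X : V h) (hX : X ∈ M.SC w) : -X ∈ M.SC w := by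
  change M.exp _ ∈ M.ballC _
  rw [M.exp_neg]; exact M.inv_mem_ballC hX

theorem SC_mono (hmn : m ≤ n) : M.SC m ⊆ M.SC n := fun _ hX => M.ballC_mono hmn hX

theorem SC_subset_W (w : ℕ) : M.SC w ⊆ M.W 0 := fun X hX => (M.gr.C_exp X).1 (M.ballC_subset_C w hX)

theorem star_SC (w : ℕ) : Star (stH (M.SC w)) := star_stH (M.zero_mem_SC w)

theorem stH_SC_subset (w : ℕ) : stH (M.SC w) ⊆ M.W 0 := by
  rintro _ ⟨a, -, v, hv, rfl⟩
  exact Submodule.smul_mem _ _ (M.SC_subset_W w hv)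

theorem SC_subset_TC (n a w : ℕ) : M.SC (a * w) ⊆ M.TC n a w := fun X hX => ⟨[], by simp, by simp, X, hX, by simp⟩

theorem TC_subset_SC (n a w : ℕ) : M.TC n a w ⊆ M.SC ((a + 2 * n) * w) := by
  rintro _ ⟨l, h1, h2, X, hX, rfl⟩
  have h3 := M.ballC_mono (Nat.mul_le_mul_right w h1) (M.list_prod_mem_ballC l h2)
  change M.exp _ ∈ M.ballC _
  rw [← M.conj]
  exact M.ballC_mono (le_of_eq (by ring)) (M.mul_mem_ballC (M.mul_mem_ballC h3 hX) (M.inv_mem_ballC h3))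

theorem star_TC (n a w : ℕ) : Star (stH (M.TC n a w)) := star_stH (M.SC_subset_TC n a w (M.zero_mem_SC _))

theorem mem_ballC_of_Wd {g : M.G} (hg : M.toCore.Wd (M.SC w) m g) : g ∈ M.ballC (m * w) := by
  obtain ⟨l, h1, h2, rfl⟩ := hg
  refine M.ballC_mono (Nat.mul_le_mul_right w (by simpa using h1)) (M.list_prod_mem_ballC _ fun x hx => ?_)
  obtain ⟨v, hv, rfl⟩ := List.mem_map.1 hx
  exact h2 v hv

theorem exists_conj_TC : ∃ (n : ℕ) (D : ℝ), 1 ≤ D ∧ ∀ (a w : ℕ), ∀ T ∈ M.ballC w, ∀ (t : ℝ) (X : V h),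
    M.In (stH (M.TC n a w)) 1 t X → M.In (stH (M.TC n a w)) 1 (t * D) (M.Ad T X) := by
  obtain ⟨n, D, hD, hc⟩ := M.exists_conj
  refine ⟨n, (2 ^ M.cl * D) ^ M.cl, one_le_pow₀ (one_le_mul_of_one_le_of_one_le (one_le_pow₀ one_le_two) hD),
    fun a w T hT t X hX => hX.trans (M.star_TC n a w) (M.Ad_br T) hD (In.stH_of (M.star_TC n a w) (by linarith) ?_)⟩
  rintro _ ⟨l, h1, h2, X, hX, rfl⟩
  have h3 : ∀ T' ∈ T :: l, T' ∈ M.ballC w := by simpa [hT] using h2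
  have h4 : ∀ l' : List M.G, l'.length ≤ n → (∀ T ∈ l', T ∈ M.ballC w) → M.In (stH (M.TC n a w)) 1 1 (M.Ad l'.prod X) :=
    fun l' h h' => In.of_gen (subset_stH _ ⟨l', h, h', X, hX, rfl⟩)
  rw [← Module.End.mul_apply, ← map_mul, ← List.prod_cons]
  by_cases hl : (T :: l).length ≤ n
  · exact (h4 _ hl h3).mono (M.star_TC n a w) zero_le_one hD
  · exact hc _ (M.star_TC n a w) _ (M.ballC_subset_C w) X (M.SC_subset_W _ hX) _ (by omega) h3 fun l' h h' =>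
      h4 l' (by simp at h; omega) h'

/-- families of elements in a bounded multiple of the boxes -/
def PP (n a : ℕ) {ι : Type} (w : ι → ℕ) : Subgroup (ι → M.G) where
  carrier := {g | ∃ D : ℝ, 1 ≤ D ∧ ∀ i, ∃ X, M.In (stH (M.TC n a (w i))) 1 D X ∧ g i = M.exp X}
  one_mem' := ⟨1, le_rfl, fun i => ⟨0, In.zero (M.star_TC ..), M.exp_zero.symm⟩⟩
  inv_mem' := fun ⟨D, hD, hg⟩ => ⟨D, hD, fun i =>
    let ⟨X, hX, e⟩ := hg i; ⟨-X, hX.neg (M.star_TC ..), by rw [Pi.inv_apply, e, M.exp_neg]⟩⟩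
  mul_mem' := by
    rintro g g' ⟨D, hD, hg⟩ ⟨D', hD', hg'⟩
    obtain ⟨E, hE, he⟩ := M.exists_prod_In 2 (D + D')
    refine ⟨E, hE, fun i => ?_⟩
    obtain ⟨X, hX, e⟩ := hg i
    obtain ⟨X', hX', e'⟩ := hg' i
    have hs := M.star_TC n a (w i)
    obtain ⟨Z, hZ, e''⟩ := he _ hs [X, X'] le_rfl (by
      simpa using ⟨hX.mono hs (by linarith) (by linarith), hX'.mono hs (by linarith) (by linarith)⟩)
    exact ⟨Z, hZ, by rw [Pi.mul_apply, e, e', ← e'']; simp⟩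

theorem mem_PP {n a : ℕ} {ι : Type} {w : ι → ℕ} {g : ι → M.G} (hg : ∀ i, g i ∈ M.ballC (a * w i)) (h0 : ∀ i, M.tv (g i) = 0) :
    g ∈ M.PP n a w := by
  refine ⟨1, le_rfl, fun i => ?_⟩
  obtain ⟨X, e⟩ := M.tv_eq_zero.1 (h0 i)
  exact ⟨X, In.of_gen (subset_stH _ (M.SC_subset_TC n a _ (show M.exp X ∈ _ from e ▸ hg i))), e.symm⟩

theorem mem_closure_fam {ι : Type} (w : ι → ℕ) (L : ℕ) : ∀ g : ι → M.G, (∀ i, g i ∈ M.ballC (L * w i)) →
    g ∈ Subgroup.closure {s : ι → M.G | ∀ i, s i ∈ M.ballC (w i)} := by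
  induction L with
  | zero =>
    intro g hg
    exact Subgroup.subset_closure fun i => M.ballC_mono (by simp) (hg i)
  | succ L ih =>
    intro g hg
    choose x hx y hy e using fun i => M.ballC_split (m := L * w i) (n := w i) (by simpa [add_mul] using hg i)
    rw [show g = x * y from funext e]
    exact mul_mem (ih x hx) (Subgroup.subset_closure hy)

/-- **Claim A** -/
theorem exists_SC_In : ∃ A : ℕ, 1 ≤ A ∧ ∀ L : ℕ, ∃ D : ℝ, 1 ≤ D ∧ ∀ (w : ℕ) (t : ℝ) (X : V h),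
    M.In (stH (M.SC (L * w))) 1 t X → M.In (stH (M.SC (A * w))) 1 (t * D) X := by
  obtain ⟨n, D₀, hD₀, hc⟩ := M.exists_conj_TC
  refine ⟨k + 4 + 2 * n, by omega, fun L => ?_⟩
  let ι : Type := {p : ℕ × V h // p.2 ∈ M.SC (L * p.1)}
  let w : ι → ℕ := fun i => i.1.1
  let γ : Fin k → (ι → M.G) →* (ι → M.G) := fun j => MonoidHom.mk' (fun g i => M.gen j ^ M.tv (g i) j) fun a b => by
    ext i; simp [M.tv_mul, zpow_add]
  have hσ : ∀ g i, (List.ofFn fun j => γ j g).prod i = M.sec (M.tv (g i)) := fun g i => by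
    rw [Pi.list_prod_apply, List.map_ofFn]; rfl
  have hn : ∀ s : ι → M.G, (∀ i, s i ∈ M.ballC (w i)) → ∀ p ∈ M.PP n (k + 4) w, s * p * s⁻¹ ∈ M.PP n (k + 4) w := by
    rintro s hs p ⟨D, hD, hp⟩
    refine ⟨D * D₀, one_le_mul_of_one_le_of_one_le hD hD₀, fun i => ?_⟩
    obtain ⟨X, hX, e⟩ := hp i
    exact ⟨_, hc _ _ _ (hs i) _ _ hX, by rw [← M.conj, ← e]; rfl⟩
  obtain ⟨D, hD, key⟩ := cg_group {s : ι → M.G | ∀ i, s i ∈ M.ballC (w i)} (M.PP n (k + 4) w)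
    (fun s hs p => ⟨hn s hs p, fun h => by simpa [mul_assoc] using hn s⁻¹ (fun i => M.inv_mem_ballC (hs i)) _ h⟩)
    (fun s hs t ht => M.mem_PP (fun i => M.ballC_mono (by rw [add_mul]; omega) (M.mul_mem_ballC (M.mul_mem_ballC
      (M.mul_mem_ballC (hs i) (ht i)) (M.inv_mem_ballC (hs i))) (M.inv_mem_ballC (ht i))))
      fun i => by simp [commutatorElement_def, M.tv_mul, M.tv_inv]) γ
    (fun j s hs i => M.ballC_mono (M.natAbs_tv_le (M.ballC_subset_ball _ (hs i)) j) (M.gen_zpow_mem_ballC j _))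
    (fun s hs => M.mem_PP (fun i => by
      rw [Pi.mul_apply, Pi.inv_apply, hσ, ← eq_mul_inv_of_mul_eq (M.exp_lgm _)]
      exact M.ballC_mono (Nat.mul_le_mul_right _ (by omega)) (M.exp_lgm_mem_ballC (hs i))) fun i => by
      rw [Pi.mul_apply, Pi.inv_apply, hσ, M.tv_mul, M.tv_inv, M.tv_sec, add_neg_cancel])
    (M.mem_closure_fam w L (fun i => M.exp i.1.2) fun i => i.2)
  refine ⟨(2 ^ M.cl * D) ^ M.cl, one_le_pow₀ (one_le_mul_of_one_le_of_one_le (one_le_pow₀ one_le_two) hD), fun u t X hX =>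
    hX.trans (f := LinearMap.id) (M.star_SC _) (fun _ _ => rfl) hD (In.stH_of (M.star_SC _) (by linarith) fun Y hY => ?_)⟩
  obtain ⟨Z, hZ, e⟩ := key ⟨(u, Y), hY⟩
  rw [Pi.mul_apply, Pi.inv_apply, hσ, M.tv_exp, M.sec_zero, inv_one, mul_one] at e
  rw [LinearMap.id_apply, show Y = Z from M.exp_inj e]
  exact hZ.subset (stH_mono (M.TC_subset_SC ..))

theorem exists_In_SC_bdd (m : ℕ) (t : ℝ) : ∃ R : ℕ, ∀ X, M.In (stH (M.SC m)) 1 t X → X ∈ M.SC R := by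
  obtain ⟨B, hB, hb⟩ := M.exists_In_norm
  obtain ⟨B', hB', hb'⟩ := M.exists_norm_lgm_le
  refine ⟨⌈|t| * (B * Real.exp (B' * m)) ^ M.cl⌉₊, fun X hX => M.exp_mem_ballC (hX.mem_sub M.isSub_W_zero (M.stH_SC_subset m))
    ((hb _ _ (Real.one_le_exp (by positivity)) ?_ _ _ _ hX).trans (Nat.le_ceil _))⟩
  rintro _ ⟨a, ha, v, hv, rfl⟩
  have h1 := hb' (M.exp v)
  rw [M.lgm_exp] at h1
  have h2 : (M.len (M.exp v) : ℝ) ≤ m := Nat.cast_le.2 (M.ballC_subset_ball m hv)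
  rw [norm_smul]
  exact (mul_le_of_le_one_left (norm_nonneg _) ha).trans (h1.trans (by gcongr))

/-- **Claim B**: the convex boxes are reached by words of linear length -/
theorem exists_In_SC (t : ℝ) : ∃ A : ℕ, ∀ w, 1 ≤ w → ∀ X, M.In (stH (M.SC w)) 1 t X → X ∈ M.SC (A * w) := by
  obtain ⟨A, hA, ha⟩ := M.exists_SC_In
  obtain ⟨D, hD, hd⟩ := ha (4 * A)
  set t₀ : ℝ := M.cl * (h + 1) with ht₀
  obtain ⟨M₁, h₁⟩ := M.exists_frac (t₀ * D)
  obtain ⟨R, hR⟩ := M.exists_In_SC_bdd (2 * A) t₀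
  have key : ∀ w, 1 ≤ w → ∀ X, M.In (stH (M.SC w)) 1 t₀ X → X ∈ M.SC ((M₁ + R) * w) := by
    intro w
    induction w using Nat.strong_induction_on with
    | _ w ih =>
      intro hw X hX
      by_cases hlt : w < 2 * A
      · exact M.SC_mono (by nlinarith) (hR X (hX.subset (stH_mono (M.SC_mono hlt.le))))
      have e1 := Nat.div_add_mod w (2 * A)
      have e2 := Nat.mod_lt w (show 0 < 2 * A by omega)
      have e3 : 1 ≤ w / (2 * A) := (Nat.one_le_div_iff (by omega)).2 (by omega)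
      set u := w / (2 * A)
      have e4 : 2 * A ≤ 2 * A * u := Nat.le_mul_of_pos_right _ e3
      have e5 : A * u ≤ w / 2 := by rw [Nat.le_div_iff_mul_le two_pos]; nlinarith [Nat.zero_le (w % (2 * A))]
      have h2 := (hd u t₀ X (hX.subset (stH_mono (M.SC_mono (by nlinarith))))).subset (stH_mono (M.SC_mono e5))
      obtain ⟨g, Z, hg, hZ, e⟩ := h₁ _ (M.zero_mem_SC _) M.neg_mem_SC X h2
      change M.exp X ∈ M.ballC _
      rw [e]
      refine M.ballC_mono ?_ (M.mul_mem_ballC (M.mem_ballC_of_Wd hg) (ih (w / 2) (by omega) (by omega) Z hZ))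
      have : w / 2 + w / 2 ≤ w := by omega
      nlinarith [Nat.zero_le (R * (w / 2))]
  obtain ⟨M₂, h₂⟩ := M.exists_frac t
  refine ⟨M₂ + (M₁ + R), fun w hw X hX => ?_⟩
  obtain ⟨g, Z, hg, hZ, e⟩ := h₂ _ (M.zero_mem_SC _) M.neg_mem_SC X hX
  change M.exp X ∈ M.ballC _
  rw [e, add_mul]
  exact M.mul_mem_ballC (M.mem_ballC_of_Wd hg) (key w hw Z hZ)

/-- balls of `C` are star-shaped up to a constant -/
theorem exists_smul_mem_ballC : ∃ A : ℕ, ∀ w, ∀ X, M.exp X ∈ M.ballC w → ∀ s : ℝ, |s| ≤ 1 → M.exp (s • X) ∈ M.ballC (A * w) := by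
  obtain ⟨A, hA⟩ := M.exists_In_SC 1
  refine ⟨A, fun w X hX s hs => ?_⟩
  rcases Nat.eq_zero_or_pos w with rfl | hw
  · obtain ⟨l, h1, -, e⟩ := hX
    rw [List.length_eq_zero_iff.1 (Nat.le_zero.1 h1), List.prod_nil, ← M.exp_zero] at e
    rw [← M.exp_inj e, smul_zero]
    exact M.zero_mem_SC _
  · exact hA w hw _ (In.of_gen ⟨s, hs, X, hX, rfl⟩)

theorem exists_lebU_SC : ∃ A : ℕ, ∀ L : ℕ, ∃ D : ℝ≥0∞, D ≠ ⊤ ∧ ∀ w, 1 ≤ w →
    lebU (M.W 0) (M.SC (L * w)) ≤ D * lebU (M.W 0) (M.SC (A * w)) := by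
  obtain ⟨A, hA, ha⟩ := M.exists_SC_In
  obtain ⟨A', ha'⟩ := M.exists_In_SC 1
  refine ⟨A' * A, fun L => ?_⟩
  obtain ⟨D, hD, hd⟩ := ha L
  refine ⟨_, ENNReal.ofReal_ne_top, fun w hw => (measure_mono fun X hX => ?_).trans
    ((lebU_smul (M.W 0) (t := 1 * D) (by positivity) (M.Qi (stH (M.SC (A * w))) 1)).le.trans
      (mul_le_mul_right (measure_mono fun X hX => ?_) _))⟩
  · exact hd w 1 X (In.of_gen (subset_stH _ hX))
  · rw [mul_assoc]
    exact ha' _ (Nat.mul_pos hA hw) X (In.of_mem hX)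

theorem card_boxZ (m : ℕ) : (Fintype.piFinset fun _ : Fin k => Finset.Icc (-(m : ℤ)) m).card = (2 * m + 1) ^ k := by
  rw [Fintype.card_piFinset_const, Int.card_Icc]
  congr 1
  omega

theorem mem_boxZ {m : ℕ} {a : Fin k → ℤ} : a ∈ (Fintype.piFinset fun _ : Fin k => Finset.Icc (-(m : ℤ)) m) ↔ ∀ i, (a i).natAbs ≤ m := by
  simp only [Fintype.mem_piFinset, Finset.mem_Icc]
  exact forall_congr' fun i => by omega

theorem hC_ballC_le (n : ℕ) : M.hC (M.ballC n) ≤ ((2 * n + 1) ^ k : ℕ) * lebU (M.W 0) (M.SC ((k + 1) * n)) := by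
  rw [← card_boxZ, ← M.hC_par]
  exact measure_mono fun g hg => ⟨M.chart g, ⟨by simpa [SC, chart] using M.exp_lgm_mem_ballC hg,
    mem_boxZ.2 (M.natAbs_tv_le (M.ballC_subset_ball n hg))⟩, M.par_chart g⟩

theorem le_hC_ballC (m n : ℕ) : ((2 * m + 1) ^ k : ℕ) * lebU (M.W 0) (M.SC n) ≤ M.hC (M.ballC (n + k * m)) := by
  rw [← card_boxZ, ← M.hC_par]
  refine measure_mono ?_
  rintro _ ⟨⟨X, a⟩, ⟨hX, ha⟩, rfl⟩
  exact M.mul_mem_ballC hX (M.sec_mem_ballC (mem_boxZ.1 ha))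

/-- **Doubling** of the balls of `C` at all scales -/
theorem exists_doubling (L : ℕ) : ∃ D : ℝ≥0∞, D ≠ ⊤ ∧ ∀ n, 1 ≤ n → M.hC (M.ballC (L * n)) ≤ D * M.hC (M.ballC n) := by
  obtain ⟨A, ha⟩ := M.exists_lebU_SC
  set N := A + k + 1 with hN
  obtain ⟨D, hD, hd⟩ := ha ((k + 1) * L * (2 * N))
  have h1 := M.hC_ballC_ne_zero le_rfl
  refine ⟨((2 * N * L + 1) ^ k : ℕ) * D + M.hC (M.ballC (L * N)) / M.hC (M.ballC 1), ENNReal.add_ne_top.2
    ⟨ENNReal.mul_ne_top (ENNReal.natCast_ne_top _) hD, ENNReal.div_ne_top (M.hC_ballC_ne_top _) h1⟩, fun n hn => ?_⟩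
  rw [add_mul]
  by_cases hlt : n < N
  · refine le_add_left ((measure_mono (M.ballC_mono (Nat.mul_le_mul_left L hlt.le))).trans ?_)
    conv_lhs => rw [← ENNReal.div_mul_cancel (a := M.hC (M.ballC 1)) (b := M.hC (M.ballC (L * N))) h1 (M.hC_ballC_ne_top 1)]
    exact mul_le_mul_right (measure_mono (M.ballC_mono hn)) _
  have e1 := Nat.div_add_mod n N
  have e2 := Nat.mod_lt n (show 0 < N by omega)
  have e3 : 1 ≤ n / N := (Nat.one_le_div_iff (by omega)).2 (by omega)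
  set u := n / N
  have e4 : N ≤ N * u := Nat.le_mul_of_pos_right _ e3
  have e5 : n ≤ 2 * N * u := by nlinarith
  refine le_add_right ((M.hC_ballC_le _).trans ?_)
  calc _ ≤ (((2 * N * L + 1) * (2 * u + 1)) ^ k : ℕ) * (D * lebU (M.W 0) (M.SC (A * u))) := by
        refine mul_le_mul' (Nat.cast_le.2 (Nat.pow_le_pow_left ?_ _)) ((measure_mono (M.SC_mono ?_)).trans (hd u e3))
        · nlinarith [Nat.mul_le_mul_left L e5]
        · rw [mul_assoc, mul_assoc]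
          exact Nat.mul_le_mul_left _ (Nat.mul_le_mul_left _ e5)
    _ = ((2 * N * L + 1) ^ k : ℕ) * D * (((2 * u + 1) ^ k : ℕ) * lebU (M.W 0) (M.SC (A * u))) := by
        push_cast; rw [mul_pow]; ring
    _ ≤ _ := mul_le_mul_right ((M.le_hC_ballC u _).trans (measure_mono (M.ballC_mono (by nlinarith [Nat.zero_le (n % N), Nat.zero_le u])))) _

end Model

end Crest.Agent.R182
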