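import Crest.Agent.R182.V.Hm

/-! R182/Cg/Ball (owner helper36): balls of `C`; the decomposition `G = exp E * C`. -/

set_option autoImplicit false
set_option linter.unusedVariables false
set_option linter.unusedSectionVars false
open Set Filter Topology MeasureTheory Crest.GroupTheory
open scoped Pointwise commutatorElement ENNReal

noncomputable section
namespace Crest.Agent.R182

namespace Model
variable {h k : ℕ} (M : Model h k) {m n : ℕ} {g g' : M.G}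

theorem KC_subset_K : M.KC ⊆ M.K := union_subset_union_left _ (image_mono inter_subset_left)

theorem KC_subset_C : M.KC ⊆ M.C := by
  rintro _ (⟨X, hX, rfl⟩ | ⟨i, rfl⟩)
  exacts [(M.gr.C_exp X).2 hX.2, M.gen_mem i]

theorem one_mem_ballC (n : ℕ) : 1 ∈ M.ballC n := ⟨[], by simp, by simp, rfl⟩

theorem ballC_mono (hmn : m ≤ n) : M.ballC m ⊆ M.ballC n := fun _ ⟨l, h1, h2, h3⟩ => ⟨l, h1.trans hmn, h2, h3⟩

theorem mem_ballC_one (hg : g ∈ M.KC ∨ g⁻¹ ∈ M.KC) : g ∈ M.ballC 1 := ⟨[g], le_rfl, by simpa using hg, by simp⟩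

theorem mul_mem_ballC (hg : g ∈ M.ballC m) (hg' : g' ∈ M.ballC n) : g * g' ∈ M.ballC (m + n) := by
  obtain ⟨l, h1, h2, rfl⟩ := hg
  obtain ⟨l', h1', h2', rfl⟩ := hg'
  exact ⟨l ++ l', by simpa using add_le_add h1 h1', fun x hx => (List.mem_append.1 hx).elim (h2 x) (h2' x), by simp⟩

theorem inv_mem_ballC (hg : g ∈ M.ballC n) : g⁻¹ ∈ M.ballC n := by
  obtain ⟨l, h1, h2, rfl⟩ := hg
  refine ⟨(l.map fun x => x⁻¹).reverse, by simpa using h1, fun x hx => ?_, (List.prod_inv_reverse l).symm⟩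
  obtain ⟨y, hy, rfl⟩ := List.mem_map.1 (List.mem_reverse.1 hx)
  simpa using (h2 y hy).symm

theorem inv_ballC (n : ℕ) : (M.ballC n)⁻¹ = M.ballC n :=
  Set.ext fun g => ⟨fun hg => by simpa using M.inv_mem_ballC hg, fun hg => M.inv_mem_ballC hg⟩

theorem list_prod_mem_ballC (l : List M.G) (hl : ∀ x ∈ l, x ∈ M.ballC n) : l.prod ∈ M.ballC (l.length * n) := by
  induction l with
  | nil => exact M.one_mem_ballC _
  | cons x l ih =>
    rw [List.length_cons, add_mul, one_mul, add_comm, List.prod_cons]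
    exact M.mul_mem_ballC (hl x (by simp)) (ih fun y hy => hl y (by simp [hy]))

theorem zpow_mem_ballC (hg : g ∈ M.ballC n) (a : ℤ) : g ^ a ∈ M.ballC (a.natAbs * n) := by
  have h : ∀ j : ℕ, g ^ j ∈ M.ballC (j * n) := fun j => by
    simpa using M.list_prod_mem_ballC (List.replicate j g) fun y hy => List.eq_of_mem_replicate hy ▸ hg
  obtain ⟨j, rfl | rfl⟩ := a.eq_nat_or_neg
  · simpa using h j
  · simpa using M.inv_mem_ballC (h j)

theorem ballC_split (hg : g ∈ M.ballC (m + n)) : ∃ x ∈ M.ballC m, ∃ y ∈ M.ballC n, g = x * y := by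
  obtain ⟨l, h1, h2, rfl⟩ := hg
  exact ⟨_, ⟨l.take m, by simp, fun x hx => h2 x (List.mem_of_mem_take hx), rfl⟩,
    _, ⟨l.drop m, by simp; omega, fun x hx => h2 x (List.mem_of_mem_drop hx), rfl⟩, (List.prod_take_mul_prod_drop l m).symm⟩

theorem ballC_add (m n : ℕ) : M.ballC (m + n) = M.ballC m * M.ballC n := by
  ext g
  exact ⟨fun hg => let ⟨x, hx, y, hy, e⟩ := M.ballC_split hg; ⟨x, hx, y, hy, e.symm⟩,
    fun ⟨x, hx, y, hy, e⟩ => e ▸ M.mul_mem_ballC hx hy⟩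

theorem ballC_subset_C (n : ℕ) : M.ballC n ⊆ M.C := by
  rintro _ ⟨l, -, h2, rfl⟩
  exact M.C.list_prod_mem fun x hx => (h2 x hx).elim (fun h => M.KC_subset_C h) fun h => M.C.inv_mem_iff.1 (M.KC_subset_C h)

theorem ballC_subset_ball (n : ℕ) : M.ballC n ⊆ M.ball n := by
  rintro _ ⟨l, h1, h2, rfl⟩
  exact (wl_le fun x hx => (h2 x hx).imp (fun h => M.KC_subset_K h) fun h => M.KC_subset_K h).trans h1

theorem exp_mem_ballC {X : V h} (hX : X ∈ M.W 0) (hn : ‖X‖ ≤ n) : M.exp X ∈ M.ballC n := by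
  rcases Nat.eq_zero_or_pos n with rfl | h0
  · rw [show X = 0 by simpa using hn, M.exp_zero]; exact M.one_mem_ballC _
  have h1 : (0 : ℝ) < n := Nat.cast_pos.2 h0
  have := M.zpow_mem_ballC (M.mem_ballC_one (g := M.exp ((n : ℝ)⁻¹ • X)) (Or.inl (Or.inl ⟨_, ⟨?_, Submodule.smul_mem _ _ hX⟩, rfl⟩))) n
  · rwa [M.exp_zpow, smul_smul, Int.cast_natCast, mul_inv_cancel₀ h1.ne', one_smul, Int.natAbs_natCast, mul_one] at this
  · rw [mem_closedBall_zero_iff, norm_smul, norm_inv, Real.norm_natCast, inv_mul_le_iff₀ h1, mul_one]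
    exact hn

theorem gen_zpow_mem_ballC (i : Fin k) (a : ℤ) : M.gen i ^ a ∈ M.ballC a.natAbs := by
  simpa using M.zpow_mem_ballC (M.mem_ballC_one (Or.inl (Or.inr ⟨i, rfl⟩))) a

theorem sec_mem_ballC {a : Fin k → ℤ} (ha : ∀ i, (a i).natAbs ≤ n) : M.sec a ∈ M.ballC (k * n) := by
  have := M.list_prod_mem_ballC (n := n) (List.ofFn fun i => M.gen i ^ a i) fun x hx => by
    obtain ⟨i, rfl⟩ := List.mem_ofFn.1 hx
    exact M.ballC_mono (ha i) (M.gen_zpow_mem_ballC i _)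
  rwa [List.length_ofFn] at this

theorem natAbs_tv_le (hg : g ∈ M.ball n) (i : Fin k) : (M.tv g i).natAbs ≤ n := by
  have := (M.abs_tv_le g i).trans (Nat.cast_le.2 hg)
  rw [← Int.cast_abs, ← Int.natCast_natAbs] at this
  exact_mod_cast this

theorem exp_lgm_mem_ballC (hg : g ∈ M.ballC n) : M.exp (M.lgm g) ∈ M.ballC ((k + 1) * n) := by
  rw [eq_mul_inv_of_mul_eq (M.exp_lgm g), add_mul, one_mul, add_comm]
  exact M.mul_mem_ballC hg (M.inv_mem_ballC (M.sec_mem_ballC (M.natAbs_tv_le (M.ballC_subset_ball n hg))))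

theorem exists_mem_ballC (hg : g ∈ M.C) : ∃ n, g ∈ M.ballC n :=
  ⟨_, M.exp_lgm g ▸ M.mul_mem_ballC (M.exp_mem_ballC (M.mem_C.1 hg) (Nat.le_ceil _))
    (M.sec_mem_ballC fun i => Finset.single_le_sum (f := fun i => (M.tv g i).natAbs) (fun _ _ => Nat.zero_le _) (Finset.mem_univ i))⟩

theorem lenC_le (hg : g ∈ M.ballC n) : M.lenC g ≤ n := by
  obtain ⟨l, h1, h2, rfl⟩ := hg
  exact (wl_le h2).trans h1

theorem mem_ballC_lenC (hg : g ∈ M.C) : g ∈ M.ballC (M.lenC g) := by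
  obtain ⟨n, l, -, h2, h3⟩ := M.exists_mem_ballC hg
  obtain ⟨l', h1', h2', h3'⟩ := Nat.sInf_mem (s := {n | ∃ l : List M.G, l.length = n ∧ (∀ x ∈ l, x ∈ M.KC ∨ x⁻¹ ∈ M.KC) ∧ l.prod = g})
    ⟨_, l, rfl, h2, h3⟩
  exact ⟨l', h1'.le, h2', h3'⟩

theorem mem_ballC (hg : g ∈ M.C) : g ∈ M.ballC n ↔ M.lenC g ≤ n :=
  ⟨M.lenC_le, fun h => M.ballC_mono h (M.mem_ballC_lenC hg)⟩

theorem lenC_one : M.lenC 1 = 0 := Nat.le_zero.1 (M.lenC_le (M.one_mem_ballC 0))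

theorem lenC_mul (hg : g ∈ M.C) (hg' : g' ∈ M.C) : M.lenC (g * g') ≤ M.lenC g + M.lenC g' :=
  M.lenC_le (M.mul_mem_ballC (M.mem_ballC_lenC hg) (M.mem_ballC_lenC hg'))

theorem lenC_inv (hg : g ∈ M.C) : M.lenC g⁻¹ = M.lenC g :=
  le_antisymm (M.lenC_le (M.inv_mem_ballC (M.mem_ballC_lenC hg)))
    (M.lenC_le (by simpa using M.inv_mem_ballC (M.mem_ballC_lenC (M.C.inv_mem hg))))

theorem len_le_lenC (hg : g ∈ M.C) : M.len g ≤ M.lenC g := M.ballC_subset_ball _ (M.mem_ballC_lenC hg)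

theorem cga_isCompact_KC : IsCompact M.KC :=
  (((isCompact_closedBall _ _).inter_right (M.W 0).closed_of_finiteDimensional).image M.continuous_exp).union
    (finite_range _).isCompact

theorem cga_ballC_one : M.ballC 1 = M.KC ∪ M.KC⁻¹ ∪ {1} := by
  ext g
  constructor
  · rintro ⟨l, h1, h2, rfl⟩
    rcases l with _ | ⟨x, _ | ⟨y, l⟩⟩
    · exact Or.inr rfl
    · exact Or.inl (by simpa using h2 x (by simp))
    · simp at h1
  · rintro (hg | rfl)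
    · exact M.mem_ballC_one hg
    · exact M.one_mem_ballC _

/-- `ballC_add`, `ballC 1 = KC ∪ KC⁻¹ ∪ {1}` -/
theorem isCompact_ballC (n : ℕ) : IsCompact (M.ballC n) := by
  induction n with
  | zero =>
    refine ((finite_singleton (1 : M.G)).subset ?_).isCompact
    rintro _ ⟨l, h1, -, rfl⟩
    rw [List.length_eq_zero_iff.1 (Nat.le_zero.1 h1)]
    rfl
  | succ n ih =>
    rw [M.ballC_add, M.cga_ballC_one]
    exact ih.mul ((M.cga_isCompact_KC.union M.cga_isCompact_KC.inv).union isCompact_singleton)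


theorem measurableSet_ballC (n : ℕ) : MeasurableSet (M.ballC n) := (M.isCompact_ballC n).measurableSet

theorem hC_ballC_ne_top (n : ℕ) : M.hC (M.ballC n) ≠ ⊤ := (M.isCompact_ballC n).measure_lt_top.ne

/-- `hC_par` with `A = {0}`, `lebU_ball_pos` -/
theorem hC_ballC_ne_zero (hn : 1 ≤ n) : M.hC (M.ballC n) ≠ 0 := by
  have h1 := M.hC_par (Metric.closedBall 0 1 ∩ M.W 0) {0}
  rw [lebU_inter, Finset.card_singleton, Nat.cast_one, one_mul] at h1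
  refine ((lebU_ball_pos (M.W 0) one_pos).trans_le (h1.symm.trans_le (measure_mono ?_))).ne'
  rintro _ ⟨⟨X, a⟩, ⟨hX, ha⟩, rfl⟩
  have ha0 : a = 0 := by simpa using ha
  subst ha0
  refine M.ballC_mono hn (M.mem_ballC_one (Or.inl (Or.inl ⟨X, hX, ?_⟩)))
  rw [Model.par, M.sec_zero, mul_one]


theorem cga_split {s : ℝ} {n : ℕ} (hs : ∀ w : List M.G, M.GW w → w.length ≤ n → ∀ Y ∈ M.W 0, ‖Y‖ ≤ 1 → ‖M.Ad w.prod Y‖ ≤ s)
    (l : List M.G) (hn : l.length ≤ n) (hl : ∀ x ∈ l, x ∈ M.KC ∨ x⁻¹ ∈ M.KC) : ∃ (u : List (V h)) (w : List M.G),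
    M.GW w ∧ w.length ≤ l.length ∧ u.length ≤ l.length ∧ l.prod = (u.map M.exp).prod * w.prod ∧ ∀ Z ∈ u, ‖Z‖ ≤ s := by
  induction l using List.reverseRecOn with
  | nil => exact ⟨[], [], fun _ h => by simp at h, le_rfl, le_rfl, by simp, fun _ h => by simp at h⟩
  | append_singleton l x ih =>
    have hn' : l.length ≤ n := by simp at hn; omega
    obtain ⟨u, w, h1, h2, h3, h4, h5⟩ := ih hn' fun y hy => hl y (List.mem_append_left _ hy)
    have hx : (x ∈ range M.gen ∨ x⁻¹ ∈ range M.gen) ∨ ∃ Y ∈ M.W 0, ‖Y‖ ≤ 1 ∧ x = M.exp Y := by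
      rcases hl x (by simp) with (⟨Y, hY, rfl⟩ | hx) | (⟨Y, hY, e⟩ | hx)
      · exact Or.inr ⟨Y, hY.2, by simpa using hY.1, rfl⟩
      · exact Or.inl (Or.inl hx)
      · exact Or.inr ⟨-Y, neg_mem hY.2, by simpa using hY.1, by rw [M.exp_neg, e, inv_inv]⟩
      · exact Or.inl (Or.inr hx)
    rcases hx with hx | ⟨Y, hY0, hY, rfl⟩
    · refine ⟨u, w ++ [x], fun y hy => ?_, by simpa using h2, by simp; omega, by simp [h4, mul_assoc], h5⟩
      rcases List.mem_append.1 hy with hy | hy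
      · exact h1 y hy
      · rw [List.mem_singleton.1 hy]; exact hx
    · refine ⟨u ++ [M.Ad w.prod Y], w, h1, by simp; omega, by simpa using h3, ?_, fun Z hZ => ?_⟩
      · simp only [List.prod_append, List.prod_singleton, List.map_append, List.map_singleton, h4, mul_assoc]
        rw [M.mul_exp]
      · rcases List.mem_append.1 hZ with hZ | hZ
        · exact h5 Z hZ
        · rw [List.mem_singleton.1 hZ]
          exact hs w h1 (h2.trans hn') Y hY0 hY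

/-- elements of `C` have polynomial logarithm: `norm_lgm_le_of_ht`-like argument (`apipolyb_split`, `norm_Ad_GW` on `W 0`, `norm_prod_le`,
`norm_lgm_GW`) -/
theorem norm_lgm_ballC : ∃ (B : ℝ) (D : ℕ), 1 ≤ B ∧ ∀ n, ∀ g ∈ M.ballC n, ‖M.lgm g‖ ≤ B * (1 + n) ^ D := by
  obtain ⟨B1, D1, hB1, h1⟩ := M.norm_Ad_GW
  obtain ⟨B2, D2, hB2, h2⟩ := M.norm_prod_le
  obtain ⟨B3, D3, hB3, h3⟩ := M.norm_lgm_GW
  obtain ⟨B5, D5, hB5, h5⟩ := M.norm_bch_le
  have hb : 1 ≤ B1 ^ D2 := one_le_pow₀ hB1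
  have hc : 1 ≤ B2 * B1 ^ D2 * B3 := one_le_mul_of_one_le_of_one_le (one_le_mul_of_one_le_of_one_le hB2 hb) hB3
  refine ⟨B5 * (B2 * B1 ^ D2 * B3) ^ D5, ((D1 + 1) * D2 + D3) * D5,
    one_le_mul_of_one_le_of_one_le hB5 (one_le_pow₀ hc), ?_⟩
  rintro n _ ⟨l, hn, hl, rfl⟩
  obtain ⟨t, ht⟩ : ∃ t : ℝ, t = 1 + n := ⟨_, rfl⟩
  have ht1 : 1 ≤ t := by simp [ht]
  have hlen : ∀ m : ℕ, m ≤ n → (1 + m : ℝ) ≤ t := fun m hm => by
    rw [ht]; gcongr
  obtain ⟨u, w, a1, a2, a3, a4, a5⟩ := M.cga_split (s := B1 * t ^ D1) (n := n) (fun w hw hwn Y hY0 hY => by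
    refine (h1 w 0 hw Y fun j hj => ?_).trans ?_
    · rw [not_not.1 fun h => hj (M.mem_W.1 hY0 j h), M.ht_zero]
    · have := hlen _ hwn
      rw [Real.exp_zero, mul_one]
      calc B1 * (1 + (w.length : ℝ)) ^ D1 * ‖Y‖ ≤ B1 * t ^ D1 * 1 := by gcongr
        _ = _ := mul_one _) l hn hl
  have hs : 1 ≤ B1 * t ^ D1 := one_le_mul_of_one_le_of_one_le hB1 (one_le_pow₀ ht1)
  obtain ⟨Z, hZ, hZ'⟩ := h2 (B1 * t ^ D1) u hs a5
  have hE : 1 ≤ t ^ ((D1 + 1) * D2) := one_le_pow₀ ht1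
  have hE' : 1 ≤ t ^ D3 := one_le_pow₀ ht1
  have h6 := h5 (B2 * B1 ^ D2 * B3 * t ^ ((D1 + 1) * D2 + D3)) Z (M.lgm w.prod)
    (one_le_mul_of_one_le_of_one_le hc (one_le_pow₀ ht1)) (hZ.trans ?_) ((h3 w a1).trans ?_)
  · rw [a4, hZ', M.lgm_exp_mul, ← ht]
    refine h6.trans (le_of_eq ?_)
    rw [mul_pow (B2 * B1 ^ D2 * B3), ← pow_mul, mul_assoc B5]
  · have b1 := hlen _ (a3.trans hn)
    calc B2 * ((1 + (u.length : ℝ)) * (B1 * t ^ D1)) ^ D2 ≤ B2 * (t * (B1 * t ^ D1)) ^ D2 := by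
          gcongr
      _ = B2 * B1 ^ D2 * 1 * (t ^ ((D1 + 1) * D2) * 1) := by
          rw [pow_mul, mul_one, mul_one, mul_assoc B2, ← mul_pow]; congr 2; ring
      _ ≤ B2 * B1 ^ D2 * B3 * (t ^ ((D1 + 1) * D2) * t ^ D3) := by gcongr
      _ = _ := by rw [pow_add]
  · have b1 := hlen _ (a2.trans hn)
    calc B3 * (1 + (w.length : ℝ)) ^ D3 ≤ B3 * t ^ D3 := by gcongr
      _ = 1 * 1 * B3 * (1 * t ^ D3) := by ring
      _ ≤ B2 * B1 ^ D2 * B3 * (t ^ ((D1 + 1) * D2) * t ^ D3) := by gcongr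
      _ = _ := by rw [pow_add]


theorem cgb_exp : ∃ B : ℝ, 1 ≤ B ∧ ∀ Y : V h, ‖Y‖ ≤ 1 → ∃ Z ∈ M.E, ‖Z‖ ≤ B ∧ ∃ c ∈ M.ballC 1, M.exp Y = M.exp Z * c := by
  classical
  obtain ⟨B, D, hB, hb⟩ := M.norm_bch_le
  refine ⟨B, hB, fun Y hY => ?_⟩
  set Y₀ : V h := fun j => if M.wt j = 0 then Y j else 0 with hY₀
  have h0 : Y₀ ∈ M.W 0 := M.mem_W.2 fun j hj => if_neg hj
  have hn : ‖Y₀‖ ≤ 1 := by
    refine (pi_norm_le_iff_of_nonneg zero_le_one).2 fun j => ?_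
    by_cases hj : M.wt j = 0
    · simpa [hY₀, hj] using (norm_le_pi_norm Y j).trans hY
    · simp [hY₀, hj]
  have hE : -Y₀ - -Y ∈ M.E := by
    have : -Y₀ - -Y ∈ ⨆ α : {α : Fin k → ℝ // α ≠ 0}, M.W α :=
      (M.mem_iSup_W (p := fun α => α ≠ 0)).2 fun j hj => by simp [hY₀, not_not.1 hj]
    exact (iSup_le fun α : {α : Fin k → ℝ // α ≠ 0} => M.W_le_E α.2) this
  have h1 := (M.inv_mul_mem_expSub M.isIdl_E).2 hE
  rw [M.exp_neg Y, inv_inv, M.exp_bch, M.exp_mem_expSub (Core.IsIdl.isSub _ M.isIdl_E)] at h1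
  refine ⟨_, h1, by simpa using hb 1 Y (-Y₀) le_rfl hY (by simpa using hn), M.exp Y₀,
    M.exp_mem_ballC h0 (by simpa using hn), ?_⟩
  rw [← M.exp_bch, M.exp_neg, inv_mul_cancel_right]

theorem cgb_letter : ∃ B : ℝ, 1 ≤ B ∧ ∀ x : M.G, (x ∈ M.K ∨ x⁻¹ ∈ M.K) →
    ∃ Z ∈ M.E, ‖Z‖ ≤ B ∧ ∃ c ∈ M.ballC 1, x = M.exp Z * c := by
  obtain ⟨B, hB, hb⟩ := M.cgb_exp
  refine ⟨B, hB, fun x hx => ?_⟩
  have h0 : x ∈ M.ballC 1 → ∃ Z ∈ M.E, ‖Z‖ ≤ B ∧ ∃ c ∈ M.ballC 1, x = M.exp Z * c := fun hc =>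
    ⟨0, M.E.zero_mem, by simpa using zero_le_one.trans hB, x, hc, by rw [M.exp_zero, one_mul]⟩
  rcases hx with (⟨Y, hY, rfl⟩ | hx) | (⟨Y, hY, e⟩ | hx)
  · exact hb Y (mem_closedBall_zero_iff.1 hY)
  · exact h0 (M.mem_ballC_one (Or.inl (Or.inr hx)))
  · have := hb (-Y) (by simpa using hY)
    rwa [M.exp_neg, e, inv_inv] at this
  · exact h0 (M.mem_ballC_one (Or.inr (Or.inr hx)))

theorem cgb_conj (x : M.G) (u : List (V h)) : x * (u.map M.exp).prod = ((u.map (M.Ad x)).map M.exp).prod * x := by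
  induction u with
  | nil => simp
  | cons Z u ih => simp only [List.map_cons, List.prod_cons]; rw [← mul_assoc, M.mul_exp, mul_assoc, ih, mul_assoc]

theorem cgb_list : ∃ B₀ B : ℝ, 1 ≤ B₀ ∧ 0 ≤ B ∧ ∀ g : M.G, ∃ u : List (V h), u.length ≤ M.len g ∧
    (∀ Z ∈ u, Z ∈ M.E ∧ ‖Z‖ ≤ B₀ * Real.exp (B * M.len g)) ∧ ∃ c ∈ M.ballC (M.len g), g = (u.map M.exp).prod * c := by
  obtain ⟨B₀, hB₀, h₀⟩ := M.cgb_letter
  obtain ⟨B, hB, h₁⟩ := M.exists_norm_Ad_le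
  refine ⟨B₀, B, hB₀, hB, M.apilena_ind (p := fun g n => ∃ u : List (V h), u.length ≤ n ∧
    (∀ Z ∈ u, Z ∈ M.E ∧ ‖Z‖ ≤ B₀ * Real.exp (B * n)) ∧ ∃ c ∈ M.ballC n, g = (u.map M.exp).prod * c)
    ⟨[], le_rfl, by simp, 1, M.one_mem_ballC _, by simp⟩ ?_⟩
  rintro x g n hx ⟨u, hu, hZ, c, hc, rfl⟩
  obtain ⟨Z, hZE, hZn, c₀, hc₀, e⟩ := h₀ x hx
  refine ⟨u.map (M.Ad x) ++ [Z], by simpa using hu, fun Y hY => ?_, c₀ * c, add_comm 1 n ▸ M.mul_mem_ballC hc₀ hc, ?_⟩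
  · rcases List.mem_append.1 hY with hY | hY
    · obtain ⟨Y', hY', rfl⟩ := List.mem_map.1 hY
      refine ⟨M.Ad_E x (hZ Y' hY').1, (h₁ x Y').trans ?_⟩
      have h2 : (M.len x : ℝ) ≤ 1 := by exact_mod_cast M.apipolyb_len hx
      calc Real.exp (B * M.len x) * ‖Y'‖ ≤ Real.exp (B * 1) * (B₀ * Real.exp (B * n)) := by
            gcongr
            exact (hZ Y' hY').2
        _ = _ := by push_cast; rw [mul_add, Real.exp_add]; ring
    · rw [List.mem_singleton.1 hY]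
      exact ⟨hZE, hZn.trans (le_mul_of_one_le_right (by linarith) (Real.one_le_exp (by positivity)))⟩
  · rw [← mul_assoc, M.cgb_conj, List.map_append, List.prod_append]
    simp only [List.map_cons, List.map_nil, List.prod_cons, List.prod_nil, mul_one, mul_assoc]
    rw [← mul_assoc (M.exp Z), ← e]

/-- **DEC**.  A letter `exp Y`, `‖Y‖ ≤ 1`, is `exp Z * exp Y₀` with `Y₀ = fun j => if wt j = 0 then Y j else 0 ∈ W 0`, `Z = bch Y (-Y₀) ∈ E` bounded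
(`Y - Y₀ ∈ E`, `inv_mul_mem_expSub`/`bch_sub_mem`, `norm_bch_le`).  By induction on the word, `l.prod = (u.map exp).prod * c` with `u.length ≤ l.length`,
entries of `u` in `E` of norm `≤ B₀ * exp (B * l.length)` (`mul_exp`, `exists_norm_Ad_le`, `Ad_E`), `c ∈ ballC l.length`; then `norm_prod_le` and
`exp_mem_expSub`. -/
theorem exists_dec : ∃ B : ℝ, 0 ≤ B ∧ ∀ n, ∀ g ∈ M.ball n, ∃ X ∈ M.E, ∃ c ∈ M.ballC n, ‖X‖ ≤ Real.exp (B * n) ∧ g = M.exp X * c := by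
  obtain ⟨B₀, B, hB₀, hB, h₀⟩ := M.cgb_list
  obtain ⟨B₁, D, hB₁, h₁⟩ := M.norm_prod_le
  have l₀ := Real.log_nonneg hB₀
  have l₁ := Real.log_nonneg hB₁
  refine ⟨Real.log B₁ + D * (1 + Real.log B₀ + B), by positivity, fun n g hg => ?_⟩
  obtain ⟨u, hu, hZ, c, hc, e⟩ := h₀ g
  have hg' : M.len g ≤ n := hg
  rcases Nat.eq_zero_or_pos n with rfl | hn
  · have : u = [] := List.length_eq_zero_iff.1 (by omega)
    exact ⟨0, M.E.zero_mem, c, M.ballC_mono hg' hc, by simp, by simpa [this, M.exp_zero] using e⟩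
  have hs : 1 ≤ B₀ * Real.exp (B * n) := one_le_mul_of_one_le_of_one_le hB₀ (Real.one_le_exp (by positivity))
  obtain ⟨X, hX, eX⟩ := h₁ _ u hs fun Y hY => (hZ Y hY).2.trans (by gcongr)
  have hE := Core.IsIdl.isSub _ M.isIdl_E
  refine ⟨X, (M.exp_mem_expSub hE).1 (eX ▸ Subgroup.list_prod_mem _ fun y hy => ?_), c, M.ballC_mono hg' hc,
    hX.trans ?_, eX ▸ e⟩
  · obtain ⟨Y, hY, rfl⟩ := List.mem_map.1 hy
    exact (M.exp_mem_expSub hE).2 (hZ Y hY).1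
  have hn' : (1 : ℝ) ≤ n := by exact_mod_cast hn
  have key : ∀ A : ℝ, 1 ≤ A → A ≤ Real.exp (Real.log A * n) := fun A hA => by
    conv_lhs => rw [← Real.exp_log (zero_lt_one.trans_le hA)]
    exact Real.exp_le_exp.2 (le_mul_of_one_le_right (Real.log_nonneg hA) hn')
  have h2 : (1 + u.length : ℝ) ≤ Real.exp n := by
    have : (u.length : ℝ) ≤ n := by exact_mod_cast hu.trans hg'
    linarith [Real.add_one_le_exp (n : ℝ)]
  calc B₁ * ((1 + u.length) * (B₀ * Real.exp (B * n))) ^ D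
      ≤ Real.exp (Real.log B₁ * n) * (Real.exp n * (Real.exp (Real.log B₀ * n) * Real.exp (B * n))) ^ D := by
        gcongr
        exacts [key _ hB₁, key _ hB₀]
    _ = _ := by
        rw [← Real.exp_add, ← Real.exp_add, ← Real.exp_nat_mul, ← Real.exp_add]
        congr 1
        ring

end Model

end Crest.Agent.R182
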