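import Crest.Agent.R182.Cg.Ball
import Crest.Agent.R182.U.Frac
import Crest.Agent.R182.A.Grade

/-! R182/Cg/Conj (owner helper36): long conjugations are controlled by short ones. -/

set_option autoImplicit false
set_option linter.unusedVariables false
set_option linter.unusedSectionVars false
open Set Filter Topology MeasureTheory Crest.GroupTheory
open scoped Pointwise commutatorElement ENNReal

noncomputable section
namespace Crest.Agent.R182

theorem cg_group {Γ : Type*} [Group Γ] (S : Set Γ) (P : Subgroup Γ) (hn : ∀ s ∈ S, ∀ p, p ∈ P ↔ s * p * s⁻¹ ∈ P)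
    (hc : ∀ s ∈ S, ∀ t ∈ S, ⁅s, t⁆ ∈ P) {k : ℕ} (γ : Fin k → Γ →* Γ) (hγ : ∀ j, ∀ s ∈ S, γ j s ∈ S)
    (hs : ∀ s ∈ S, s * ((List.ofFn fun j => γ j s).prod)⁻¹ ∈ P) {g : Γ} (hg : g ∈ Subgroup.closure S) :
    g * ((List.ofFn fun j => γ j g).prod)⁻¹ ∈ P := by
  set H := Subgroup.closure S with hH
  have hle : H ≤ Subgroup.normalizer P := (Subgroup.closure_le _).2 fun s hs => Subgroup.mem_normalizer_iff.2 (hn s hs)
  have : (P.subgroupOf H).Normal := ⟨fun p hp x => (Subgroup.mem_normalizer_iff.1 (hle x.2) p).1 hp⟩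
  let π := QuotientGroup.mk' (P.subgroupOf H)
  have hd : Subgroup.closure (((↑) : H → Γ) ⁻¹' S) = ⊤ := Subgroup.closure_closure_coe_preimage
  have h1 : ∀ a b : H, Commute (π a) (π b) := by
    have h2 : ∀ a : H, (∀ b : H, (b : Γ) ∈ S → Commute (π a) (π b)) → ∀ b, Commute (π a) (π b) := fun a ha b => by
      have : (⊤ : Subgroup H) ≤ (Subgroup.centralizer {π a}).comap π := by
        rw [← hd]
        exact (Subgroup.closure_le _).2 fun b hb => Subgroup.mem_centralizer_singleton_iff.2 (ha b hb).symm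
      exact (Subgroup.mem_centralizer_singleton_iff.1 (this (Subgroup.mem_top b)) : Commute _ _).symm
    refine fun a => h2 a fun b hb => (h2 b (fun a ha => ?_) a).symm
    rw [← commutatorElement_eq_one_iff_commute, ← map_commutatorElement]
    exact (QuotientGroup.eq_one_iff _).2 (hc _ hb _ ha)
  let _ : CommGroup (H ⧸ P.subgroupOf H) := { (inferInstance : Group (H ⧸ P.subgroupOf H)) with
    mul_comm := fun a b => by
      obtain ⟨a, rfl⟩ := QuotientGroup.mk'_surjective _ a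
      obtain ⟨b, rfl⟩ := QuotientGroup.mk'_surjective _ b
      exact h1 a b }
  have hm : ∀ j, ∀ x : H, γ j x ∈ H := fun j x =>
    (Subgroup.closure_le (H.comap (γ j))).2 (fun s hs => Subgroup.subset_closure (hγ j s hs)) x.2
  let γ' : Fin k → H →* H := fun j => ((γ j).comp H.subtype).codRestrict H (hm j)
  have key : ∀ x : H, (π x = (∏ j, π.comp (γ' j)) x ↔ (x : Γ) * ((List.ofFn fun j => γ j x).prod)⁻¹ ∈ P) := fun x => by
    rw [MonoidHom.finsetProd_apply, ← List.prod_ofFn, ← mul_inv_eq_one]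
    have : (List.ofFn fun j => π.comp (γ' j) x).prod = π (List.ofFn fun j => γ' j x).prod := by
      rw [map_list_prod, List.map_ofFn]; rfl
    rw [this, ← map_inv, ← map_mul]
    refine (QuotientGroup.eq_one_iff _).trans ?_
    rw [Subgroup.mem_subgroupOf, Subgroup.coe_mul, Subgroup.coe_inv, ← Subgroup.subtype_apply (List.prod _), map_list_prod,
      List.map_ofFn]
    rfl
  have := MonoidHom.eq_of_eqOn_dense hd (f := π) (g := ∏ j, π.comp (γ' j)) fun x hx => (key x).2 (hs x hx)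
  exact (key ⟨g, hg⟩).1 (by rw [← this])

namespace Core
variable {h k : ℕ} {c : Core h k} {𝒱 : Set (V h)} {s t : ℝ} {v w : Fin h → ℂ}

variable (c) in
/-- complex vectors with real and imaginary part in the box -/
def InC (𝒱 : Set (V h)) (t : ℝ) (v : Fin h → ℂ) : Prop := c.In 𝒱 1 t (reV v) ∧ c.In 𝒱 1 t (imV v)

theorem InC.add (hv : c.InC 𝒱 t v) (hw : c.InC 𝒱 s w) (ht : 0 ≤ t) (hs : 0 ≤ s) : c.InC 𝒱 (t + s) (v + w) :=
  ⟨hv.1.add hw.1 ht hs, hv.2.add hw.2 ht hs⟩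

theorem InC.smul (hs : Star 𝒱) (hv : c.InC 𝒱 t v) (ht : 0 ≤ t) {a : ℂ} (ha : ‖a‖ = 1) : c.InC 𝒱 (t + t) (a • v) := by
  have e1 : reV (a • v) = a.re • reV v - a.im • imV v := by ext j; simp [reV, imV]
  have e2 : imV (a • v) = a.re • imV v + a.im • reV v := by ext j; simp [reV, imV]
  have h1 : ∀ {b : ℝ} {X : V h}, |b| ≤ 1 → c.In 𝒱 1 t X → c.In 𝒱 1 t (b • X) := fun hb hX =>
    (hX.smul_abs hs ht _).mono hs (by positivity) (mul_le_of_le_one_left ht hb)
  have hr := ha ▸ Complex.abs_re_le_norm a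
  have hi := ha ▸ Complex.abs_im_le_norm a
  exact ⟨e1 ▸ (h1 hr hv.1).sub hs (h1 hi hv.2) ht ht, e2 ▸ (h1 hr hv.2).add (h1 hi hv.1) ht ht⟩

theorem InC.conj (hs : Star 𝒱) {H : Subgroup c.G} {U₀ : Submodule ℂ (Fin h → ℂ)} {n : ℕ} (fl : Flag c.AdC H U₀ n)
    (hχ : ∀ j < n, ∀ g ∈ H, ‖fl.χ j g‖ = 1) {S : Set c.G} (hS : S ⊆ H) (j : ℕ) : j ≤ n → ∀ t : ℝ, 0 ≤ t → ∀ v ∈ fl.U j,
      ∀ l : List c.G, j ≤ l.length → (∀ T ∈ l, T ∈ S) →
        (∀ l' : List c.G, l'.length < l.length → (∀ T ∈ l', T ∈ S) → c.InC 𝒱 t (c.AdC l'.prod v)) →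
          c.InC 𝒱 (5 ^ j * t) (c.AdC l.prod v) := by
  induction j with
  | zero =>
    intro _ t ht v hv l _ _ _
    rw [fl.zero, Submodule.mem_bot] at hv
    rw [hv, map_zero]
    exact ⟨In.zero hs, In.zero hs⟩
  | succ j ih =>
    intro hj t ht v hv l hl hlS h
    obtain rfl | ⟨l, T, rfl⟩ := List.eq_nil_or_concat' l
    · simp at hl
    have hT : T ∈ S := hlS T (by simp)
    have hl' : ∀ T ∈ l, T ∈ S := fun T' h' => hlS T' (by simp [h'])
    have hχ' : ‖-fl.χ j T‖ = 1 := by rw [norm_neg]; exact hχ j hj T (hS hT)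
    have e : ∀ l' : List c.G, c.AdC l'.prod (c.AdC T v - fl.χ j T • v) =
        c.AdC (l' ++ [T]).prod v + (-fl.χ j T) • c.AdC l'.prod v := fun l' => by
      simp [sub_eq_add_neg]
    have h1 := ih (by omega) (t + (t + t)) (by positivity) _ (fl.step j hj T (hS hT) v hv) l (by simpa using hl) hl'
      fun l' h1 h2 => by
        rw [e]
        exact (h _ (by simpa using h1) (by simpa [or_imp, forall_and, hT] using h2)).add
          ((h l' (by simp; omega) h2).smul hs ht hχ') ht (by positivity)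
    have h2 := h1.add ((h l (by simp) hl').smul hs ht (hχ j hj T (hS hT))) (by positivity) (by positivity)
    rw [e, add_assoc (c.AdC _ _), ← add_smul, neg_add_cancel, zero_smul, add_zero] at h2
    have h3 : 5 ^ j * (t + (t + t)) + (t + t) ≤ 5 ^ (j + 1) * t := by
      have : t ≤ 5 ^ j * t := le_mul_of_one_le_left ht (one_le_pow₀ (by norm_num))
      rw [pow_succ]; nlinarith
    exact ⟨h2.1.mono hs (by positivity) h3, h2.2.mono hs (by positivity) h3⟩

end Core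

namespace Model
variable {h k : ℕ} (M : Model h k)

theorem exists_flagC {U : Submodule ℝ (V h)} (hU : ∀ g ∈ M.C, ∀ X ∈ U, M.Ad g X ∈ U) (h0 : U ≤ M.W 0) :
    ∃ (n : ℕ) (fl : Flag M.AdC M.C (cxS U) n), ∀ j < n, ∀ g ∈ M.C, ‖fl.χ j g‖ = 1 := by
  obtain ⟨n, ⟨fl⟩⟩ := exists_flag M.AdC M.C M.τ.ker M.comm_mem_ker M.unipC (cxS U) fun g hg v hv => cx_mem_cxS (hU g hg) hv
  refine ⟨n, fl, fun j hj g hg => ?_⟩
  obtain ⟨v, hv, hv0, e⟩ := fl.exists_eigen hj hg
  have := cxS_mono (h0.trans (M.grading.W_le_D hg 0)) hv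
  rw [← dyn_cx] at this
  rw [dyn_eigen _ this hv0 e, M.ht_zero, Real.exp_zero]

theorem exists_conj : ∃ (n : ℕ) (D : ℝ), 1 ≤ D ∧ ∀ 𝒱 : Set (V h), Star 𝒱 → ∀ S ⊆ (M.C : Set M.G), ∀ X ∈ M.W 0, ∀ l : List M.G,
    n ≤ l.length → (∀ T ∈ l, T ∈ S) → (∀ l' : List M.G, l'.length < l.length → (∀ T ∈ l', T ∈ S) → M.In 𝒱 1 1 (M.Ad l'.prod X)) →
      M.In 𝒱 1 D (M.Ad l.prod X) := by
  obtain ⟨n, fl, hχ⟩ := M.exists_flagC (fun g hg => M.gr.C_W g hg 0) le_rfl
  refine ⟨n, 5 ^ n, one_le_pow₀ (by norm_num), fun 𝒱 hs S hS X hX l hl hlS h => ?_⟩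
  have e : ∀ g, M.AdC g (emb X) = emb (M.Ad g X) := fun g => cx_emb _ _
  have := (Core.InC.conj hs fl hχ hS n le_rfl 1 zero_le_one (emb X) (by rw [fl.top]; exact emb_mem_cxS.2 hX) l hl hlS fun l' h1 h2 => by
    rw [e, Core.InC, reV_emb, imV_emb]
    exact ⟨h l' h1 h2, Core.In.zero hs⟩).1
  rwa [e, reV_emb, mul_one] at this

end Model

end Crest.Agent.R182
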